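import Vale.Agent.P046.Full.Assembly
import Vale.Agent.P046.Full.Orders
import Vale.Agent.P046.Full.Flow.Gap
import Vale.Agent.P046.Full.Corollary
import Vale.Agent.P046.Full.Stage.Final
import Vale.Agent.P046.Full.Stage.VertexFam
import Vale.Agent.P046.Full.Stage.StepB
import Vale.Agent.P046.Full.Stage.StepN
import Vale.Agent.P046.Full.Stage.StepR
import Vale.Agent.P046.Full.Stage.Init

namespace Vale.Agent.Results.P046.LeaveLimit

open Vale.Agent.P046

/-- The number of edges left by random triangle removal, divided by `n ^ (3 / 2)`, tends to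
`1 / (2 √2)` in probability and in expectation. -/
theorem result :
    (∀ ε : ℝ, 0 < ε → Filter.Tendsto
      (fun n : ℕ => leaveExp (fun k =>
        if ε ≤ |(k : ℝ) / (n : ℝ) ^ (3 / 2 : ℝ) - 1 / (2 * Real.sqrt 2)| then (1 : ℝ) else 0)
        (completeEdges n)) Filter.atTop (nhds 0)) ∧
    Filter.Tendsto (fun n : ℕ => leaveExp (fun k => (k : ℝ) / (n : ℝ) ^ (3 / 2 : ℝ))
      (completeEdges n)) Filter.atTop (nhds (1 / (2 * Real.sqrt 2))) :=
  Full.limit_of_goalLimit
    (Full.goalLimit_of_goals
      (Full.Stage.goalStage_of Full.Stage.stepZ Full.Stage.stepb_ok Full.Stage.stepB Full.Stage.stepN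
        Full.Stage.stepR fun hn => Full.Stage.init_small hn) Full.Orders.goalOrders Full.goalTree Full.goalFlow
      Full.goalGap)

end Vale.Agent.Results.P046.LeaveLimit
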